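import Vale.Agent.P147.Flux.RangeSpeed
import Vale.Agent.P147.Flux.AlphaRange
import Vale.Agent.P147.Flux.AlphaSpeed

namespace Vale.Agent.Results.P147.LinearRangeZeroOne

open MeasureTheory Filter Vale.Agent.P147

/-- In dimension `d ≥ 4`: the directional zero-one law holds in every direction unless almost
surely every coordinate is negligible against the number of visited sites along a subsequence; and
either the lower speed of every coordinate is zero or there is a deterministic nonzero velocity
(in which case the zero-one law holds). Moreover, for `2/(d-1) < α ≤ 1` the zero-one law holds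
unless each coordinate is, with positive probability, negligible along a subsequence against the
sum over levels of the `α`-th power of the number of visited sites at that level. -/
theorem result : ∀ d : ℕ, 4 ≤ d →
    ∀ μ : Measure (Step d → ℝ), IsProbabilityMeasure μ → IsElliptic μ →
      (∃ Q : Env d → Site d → Measure (ℕ → Site d), IsQuenchedLaw Q) ∧
        ∀ Q : Env d → Site d → Measure (ℕ → Site d), IsQuenchedLaw Q →
          ((∀ l : Fin d → ℝ, annealedEscape Q μ l = 0 ∨ annealedEscape Q μ l = 1) ∨
            ∫⁻ w, Q w 0 {X | ∀ i, liminf (fun n =>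
                |(X n i : ℝ)| / (((Finset.range (n + 1)).image X).card : ℝ)) atTop = 0}
              ∂(Measure.infinitePi fun _ : Site d => μ) = 1) ∧
          (∫⁻ w, Q w 0 {X | ∀ i, liminf (fun n => |(X n i : ℝ)| / n) atTop = 0}
              ∂(Measure.infinitePi fun _ : Site d => μ) = 1 ∨
          ((∀ l : Fin d → ℝ, annealedEscape Q μ l = 0 ∨ annealedEscape Q μ l = 1) ∧
            ∃ v : Fin d → ℝ, v ≠ 0 ∧
              ∫⁻ w, Q w 0 {X | Tendsto (fun n => fun i => (X n i : ℝ) / n) atTop (nhds v)}
                ∂(Measure.infinitePi fun _ : Site d => μ) = 1)) ∧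
          ∀ α : ℝ, 2 / ((d : ℝ) - 1) < α → α ≤ 1 →
            ((∀ l : Fin d → ℝ, annealedEscape Q μ l = 0 ∨ annealedEscape Q μ l = 1) ∨
              ∀ i, 0 < ∫⁻ w, Q w 0 {X | liminf (fun n =>
                  |(X n i : ℝ)| / ∑ m ∈ ((Finset.range (n + 1)).image X).image (fun z => z i),
                    ((((Finset.range (n + 1)).image X).filter fun z => z i = m).card : ℝ) ^ α)
                  atTop = 0} ∂(Measure.infinitePi fun _ : Site d => μ)) := by
  intro d hd μ hμ hell
  have hne : NeZero d := ⟨by omega⟩
  refine ⟨⟨Q0, isQuenchedLaw_Q0⟩, fun Q hQ => ?_⟩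
  have key : ∀ {S : Set (ℕ → Site d)}, MeasurableSet S →
      ∫⁻ w, Q w 0 S ∂(Measure.infinitePi fun _ : Site d => μ) =
        Regen.ann μ 0 (path 0 ⁻¹' S) := by
    intro S hS
    rw [Regen.ann, Regen.envLaw]
    refine lintegral_congr_ae ?_
    filter_upwards [Regen.ae_isEnv μ hell] with w hw
    rw [quenchedLaw_unique hQ hw, Q0, Measure.map_apply (measurable_path 0) hS]
  have hesc : ∀ l : Fin d → ℝ, MeasurableSet (escape l : Set (ℕ → Site d)) :=
    annealed_zero_one_aux.measurableSet_tendsto_atTop_escape
  have hconv : ∀ v : Fin d → ℝ,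
      MeasurableSet {X : ℕ → Site d |
        Tendsto (fun n => fun i => (X n i : ℝ) / n) atTop (nhds v)} := fun v =>
    measurableSet_tendsto _ fun n =>
      ((measurable_of_countable fun z : Site d => fun i => (z i : ℝ) / (n : ℝ)).comp
        (measurable_pi_apply n))
  have hzero : MeasurableSet {X : ℕ → Site d |
      ∀ i, liminf (fun n => |(X n i : ℝ)| / n) atTop = 0} := by
    have hf : ∀ i, Measurable fun X : ℕ → Site d =>
        liminf (fun n => |(X n i : ℝ)| / n) atTop := fun i =>
      Measurable.liminf fun n => ((measurable_of_countable fun z : Site d =>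
        |(z i : ℝ)| / (n : ℝ)).comp (measurable_pi_apply n))
    have h : {X : ℕ → Site d | ∀ i, liminf (fun n => |(X n i : ℝ)| / n) atTop = 0} =
        ⋂ i, (fun X : ℕ → Site d => liminf (fun n => |(X n i : ℝ)| / n) atTop) ⁻¹' {0} := by
      ext X; simp
    rw [h]
    exact MeasurableSet.iInter fun i => hf i (measurableSet_singleton 0)
  have hrange : MeasurableSet {X : ℕ → Site d | ∀ i, liminf (fun n =>
      |(X n i : ℝ)| / (((Finset.range (n + 1)).image X).card : ℝ)) atTop = 0} := by
    have hcard : ∀ n, Measurable fun X : ℕ → Site d =>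
        (((Finset.range (n + 1)).image X).card : ℝ) := by
      intro n
      have h : (fun X : ℕ → Site d => (((Finset.range (n + 1)).image X).card : ℝ)) =
          (fun f : Fin (n + 1) → Site d => ((Finset.univ.image f).card : ℝ)) ∘
            fun X i => X i := by
        funext X
        simp only [Function.comp]
        congr 2
        ext z
        simp only [Finset.mem_image, Finset.mem_range, Finset.mem_univ, true_and]
        exact ⟨fun ⟨k, hk, e⟩ => ⟨⟨k, hk⟩, e⟩, fun ⟨k, e⟩ => ⟨k, k.2, e⟩⟩
      rw [h]
      exact (measurable_of_countable _).comp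
        (measurable_pi_lambda _ fun i => measurable_pi_apply (i : ℕ))
    have hf : ∀ i, Measurable fun X : ℕ → Site d => liminf (fun n =>
        |(X n i : ℝ)| / (((Finset.range (n + 1)).image X).card : ℝ)) atTop := fun i =>
      Measurable.liminf fun n => (((measurable_of_countable fun z : Site d => |(z i : ℝ)|).comp
        (measurable_pi_apply n)).div (hcard n))
    have h : {X : ℕ → Site d | ∀ i, liminf (fun n =>
          |(X n i : ℝ)| / (((Finset.range (n + 1)).image X).card : ℝ)) atTop = 0} =
        ⋂ i, (fun X : ℕ → Site d => liminf (fun n =>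
          |(X n i : ℝ)| / (((Finset.range (n + 1)).image X).card : ℝ)) atTop) ⁻¹' {0} := by
      ext X; simp
    rw [h]
    exact MeasurableSet.iInter fun i => hf i (measurableSet_singleton 0)
  refine ⟨?_, ?_, ?_⟩
  · rcases Flux.range_dichotomy μ hd hell with h | h01
    · right
      rw [key hrange]
      exact h
    · left
      intro l
      rw [annealedEscape, key (hesc l)]
      exact h01 l
  · rcases Flux.ballistic_dichotomy μ hd hell with h | ⟨h01, v, hv0, hv⟩
    · left
      rw [key hzero]
      exact h
    · right
      refine ⟨fun l => ?_, v, hv0, ?_⟩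
      · rw [annealedEscape, key (hesc l)]
        exact h01 l
      · rw [key (hconv v)]
        exact hv
  intro α hα hα1
  have hα0 : 0 ≤ α := le_trans (div_nonneg (by norm_num) (by
    have : (4 : ℝ) ≤ d := by exact_mod_cast hd
    linarith)) hα.le
  rcases Flux.pow_dichotomy_of μ (by omega) hell hα0 (fun φ h hp hm =>
    Flux.false_of_finite_pow μ φ hd hα hα1 h hp hm) with h01 | h
  · left
    intro l
    rw [annealedEscape, key (hesc l)]
    exact h01 l
  · right
    intro i
    have hpow : ∀ n, Measurable fun X : ℕ → Site d =>
        ∑ m ∈ ((Finset.range (n + 1)).image X).image (fun z => z i),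
          ((((Finset.range (n + 1)).image X).filter fun z => z i = m).card : ℝ) ^ α := by
      intro n
      have h : (fun X : ℕ → Site d => (Finset.range (n + 1)).image X) =
          fun X => Finset.univ.image fun k : Fin (n + 1) => X k := by
        funext X
        ext z
        simp only [Finset.mem_image, Finset.mem_range, Finset.mem_univ, true_and]
        exact ⟨fun ⟨k, hk, e⟩ => ⟨⟨k, hk⟩, e⟩, fun ⟨k, e⟩ => ⟨k, k.2, e⟩⟩
      simp only [fun X => congrFun h X]
      exact (measurable_of_countable fun f : Fin (n + 1) → Site d =>
        ∑ m ∈ (Finset.univ.image f).image (fun z => z i),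
          (((Finset.univ.image f).filter fun z => z i = m).card : ℝ) ^ α).comp
        (measurable_pi_lambda _ fun k : Fin (n + 1) => measurable_pi_apply (k : ℕ))
    have hm : Measurable fun X : ℕ → Site d => liminf (fun n =>
        |(X n i : ℝ)| / ∑ m ∈ ((Finset.range (n + 1)).image X).image (fun z => z i),
          ((((Finset.range (n + 1)).image X).filter fun z => z i = m).card : ℝ) ^ α) atTop :=
      Measurable.liminf fun n => ((measurable_of_countable fun z : Site d => |(z i : ℝ)|).comp
        (measurable_pi_apply n)).div (hpow n)
    have hset : MeasurableSet {X : ℕ → Site d | liminf (fun n =>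
        |(X n i : ℝ)| / ∑ m ∈ ((Finset.range (n + 1)).image X).image (fun z => z i),
          ((((Finset.range (n + 1)).image X).filter fun z => z i = m).card : ℝ) ^ α) atTop = 0} :=
      hm (measurableSet_singleton 0)
    rw [key hset]
    simpa [Flux.powCount, Flux.levelPow, Regen.axisLevel] using h i

end Vale.Agent.Results.P147.LinearRangeZeroOne
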