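import Vale.Agent.P147.Regen.OneVelocity

namespace Vale.Agent.Results.P147.OneVelocity

open MeasureTheory Filter Vale.Agent.P147

/-- At most one nonzero velocity, in every dimension `d ≥ 3`, for every iid elliptic law. -/
theorem result : ∀ d : ℕ, 3 ≤ d →
    ∀ μ : Measure (Step d → ℝ), IsProbabilityMeasure μ → IsElliptic μ →
      (∃ Q : Env d → Site d → Measure (ℕ → Site d), IsQuenchedLaw Q) ∧
        ∀ Q : Env d → Site d → Measure (ℕ → Site d), IsQuenchedLaw Q →
          ∃ v : Fin d → ℝ,
            ∫⁻ w, Q w 0 {X | (∀ i, liminf (fun n => |(X n i : ℝ)| / n) atTop = 0) ∨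
                Tendsto (fun n => fun i => (X n i : ℝ) / n) atTop (nhds v)}
              ∂(Measure.infinitePi fun _ : Site d => μ) = 1 := by
  intro d hd μ hμ hell
  have hne : NeZero d := ⟨by omega⟩
  refine ⟨⟨Q0, isQuenchedLaw_Q0⟩, fun Q hQ => ?_⟩
  obtain ⟨v, hv⟩ := Regen.one_velocity μ hd hell
  refine ⟨v, ?_⟩
  set S : Set (ℕ → Site d) := {X | (∀ i, liminf (fun n => |(X n i : ℝ)| / n) atTop = 0) ∨
    Tendsto (fun n => fun i => (X n i : ℝ) / n) atTop (nhds v)}
  have hm : MeasurableSet S := by
    refine MeasurableSet.union ?_ ?_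
    · have hf : ∀ i, Measurable fun X : ℕ → Site d =>
          liminf (fun n => |(X n i : ℝ)| / n) atTop := fun i =>
        Measurable.liminf fun n => ((measurable_of_countable fun z : Site d =>
          |(z i : ℝ)| / (n : ℝ)).comp (measurable_pi_apply n))
      have h : {X : ℕ → Site d | ∀ i, liminf (fun n => |(X n i : ℝ)| / n) atTop = 0} =
          ⋂ i, (fun X : ℕ → Site d => liminf (fun n => |(X n i : ℝ)| / n) atTop) ⁻¹' {0} := by
        ext X; simp
      show MeasurableSet {X : ℕ → Site d | ∀ i, liminf (fun n => |(X n i : ℝ)| / n) atTop = 0}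
      rw [h]
      exact MeasurableSet.iInter fun i => hf i (measurableSet_singleton 0)
    · exact measurableSet_tendsto _ fun n =>
        ((measurable_of_countable fun z : Site d => fun i => (z i : ℝ) / (n : ℝ)).comp
          (measurable_pi_apply n))
  rw [← hv, Regen.ann, Regen.envLaw]
  refine lintegral_congr_ae ?_
  filter_upwards [Regen.ae_isEnv μ hell] with w hw
  rw [quenchedLaw_unique hQ hw, Q0, Measure.map_apply (measurable_path 0) hm]
  rfl

end Vale.Agent.Results.P147.OneVelocity
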