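import Vale.Agent.P147.Classes

namespace Vale.Agent.Results.P147.PartlyAutonomous

open MeasureTheory Vale.Agent.P147

/-- The directional zero-one law, in every dimension `d ≥ 2` and every direction `l`, for iid
elliptic laws in the free-axis class or in the free-diagonal class. -/
theorem result : ∀ d : ℕ, 2 ≤ d →
    ∀ μ : Measure (Step d → ℝ), IsProbabilityMeasure μ → IsElliptic μ →
      (FreeAxis μ ∨ FreeDiagonal μ) →
      (∃ Q : Env d → Site d → Measure (ℕ → Site d), IsQuenchedLaw Q) ∧
        ∀ Q : Env d → Site d → Measure (ℕ → Site d), IsQuenchedLaw Q →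
          ∀ l : Fin d → ℝ, annealedEscape Q μ l = 0 ∨ annealedEscape Q μ l = 1 := by
  intro d hd μ hμ hell hclass
  have hne : NeZero d := ⟨by omega⟩
  refine ⟨⟨Q0, isQuenchedLaw_Q0⟩, fun Q hQ l => ?_⟩
  rcases hclass with h | h
  · exact freeAxis_zero_one hd μ hell h l hQ
  · exact freeDiagonal_zero_one μ hell h l hQ

end Vale.Agent.Results.P147.PartlyAutonomous
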