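import Vale.Agent.P147.Flux.SlabExit
import Vale.Agent.P147.Flux.SlabSpread

namespace Vale.Agent.Results.P147.SlabExitZeroOne

open MeasureTheory Filter Vale.Agent.P147

/-- The annealed probability of a set of paths started at the origin. -/
noncomputable def annealed {d : ℕ} (Q : Env d → Site d → Measure (ℕ → Site d))
    (μ : Measure (Step d → ℝ)) (S : Set (ℕ → Site d)) : ENNReal :=
  ∫⁻ w, Q w 0 S ∂(Measure.infinitePi fun _ : Site d => μ)

/-- The signed coordinate along the step `e`. -/
def coordAlong {d : ℕ} (e : Step d) (z : Site d) : ℤ := (if e.2 then 1 else -1) * z e.1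

/-- The path first leaves the slab `0 ≤ coordAlong e < a` through its top, at a site of `S`. -/
def slabExit {d : ℕ} (e : Step d) (a : ℕ) (S : Set (Site d)) : Set (ℕ → Site d) :=
  {X | ∃ n, coordAlong e (X n) = (a : ℤ) ∧ X n ∈ S ∧
    ∀ m < n, 0 ≤ coordAlong e (X m) ∧ coordAlong e (X m) < (a : ℤ)}

/-- The sites whose lateral distance from `c` exceeds `r`. -/
def lateralFar {d : ℕ} (e : Step d) (c : Site d) (r : ℝ) : Set (Site d) :=
  {z | ∃ j, j ≠ e.1 ∧ r < |(z j : ℝ) - (c j : ℝ)|}

/-- In dimension at least three, if the walk escapes with positive probability along a coordinate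
direction and its exit positions from slabs in that direction are diffusively tight, or, more
generally, of one scale at comparable widths, then the zero-one law holds in every direction. -/
theorem result : ∀ d : ℕ, 3 ≤ d →
    ∀ μ : Measure (Step d → ℝ), IsProbabilityMeasure μ → IsElliptic μ →
      (∃ Q : Env d → Site d → Measure (ℕ → Site d), IsQuenchedLaw Q) ∧
        ∀ Q : Env d → Site d → Measure (ℕ → Site d), IsQuenchedLaw Q →
          ∀ e : Step d, 0 < annealedEscape Q μ (fun j => (stp e j : ℝ)) →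
            ((∀ δ : ℝ, 0 < δ → ∃ K : ℝ, ∃ N : ℕ, ∀ a ≥ N, ∃ c : Site d,
                annealed Q μ (slabExit e a (lateralFar e c (K * √(a : ℝ)))) ≤ ENNReal.ofReal δ) ∨
              ∀ δ : ℝ, 0 < δ → ∀ m : ℕ, ∃ A : ℝ, ∃ N : ℕ, ∀ n ≥ N, ∃ R : ℕ,
                ∀ a, n ≤ a → a ≤ m * n →
                  (∃ c : Site d,
                    annealed Q μ (slabExit e a (lateralFar e c (R : ℝ))) ≤ ENNReal.ofReal δ) ∧
                  ∑' z : {z : Site d // coordAlong e z = (a : ℤ)},
                    (annealed Q μ (slabExit e a {(z : Site d)}) -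
                      ENNReal.ofReal (A / (2 * (R : ℝ) + 1) ^ (d - 1))) ≤ ENNReal.ofReal δ) →
            ∀ l : Fin d → ℝ, annealedEscape Q μ l = 0 ∨ annealedEscape Q μ l = 1 := by
  intro d hd μ hμ hell
  obtain ⟨k, rfl⟩ : ∃ k, d = k + 1 := ⟨d - 1, by omega⟩
  refine ⟨⟨Q0, isQuenchedLaw_Q0⟩, fun Q hQ e hpos hyp l => ?_⟩
  have key : ∀ {S : Set (ℕ → Site (k + 1))}, MeasurableSet S →
      annealed Q μ S = Regen.ann μ 0 (path 0 ⁻¹' S) := by
    intro S hS
    rw [annealed, Regen.ann, Regen.envLaw]
    refine lintegral_congr_ae ?_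
    filter_upwards [Regen.ae_isEnv μ hell] with w hw
    rw [quenchedLaw_unique hQ hw, Q0, Measure.map_apply (measurable_path 0) hS]
  have hesc : ∀ v : Fin (k + 1) → ℝ, MeasurableSet (escape v : Set (ℕ → Site (k + 1))) :=
    annealed_zero_one_aux.measurableSet_tendsto_atTop_escape
  have hexit : ∀ (a : ℕ) (S : Set (Site (k + 1))), MeasurableSet (slabExit e a S) := by
    intro a S
    have he : slabExit e a S = ⋃ n, ((fun X : ℕ → Site (k + 1) => X n) ⁻¹'
        ({z | coordAlong e z = (a : ℤ)} ∩ S) ∩ ⋂ m ∈ Set.Iio n, (fun X : ℕ → Site (k + 1) => X m) ⁻¹'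
          {z | 0 ≤ coordAlong e z ∧ coordAlong e z < (a : ℤ)}) := by
      ext X
      simp [slabExit, and_assoc]
    rw [he]
    exact MeasurableSet.iUnion fun n => ((measurable_pi_apply n) (Set.to_countable _).measurableSet).inter
      (MeasurableSet.biInter (Set.to_countable _) fun m _ =>
        (measurable_pi_apply m) (Set.to_countable _).measurableSet)
  have hk1 : 1 ≤ k := by omega
  have hann : ∀ (a : ℕ) (S : Set (Site (k + 1))), annealed Q μ (slabExit e a S) =
      Regen.ann μ 0 (Flux.ExitIn (Regen.axisLevel e) a S) := fun a S => key (hexit a S)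
  have hescape : path 0 ⁻¹' escape (fun j => (stp e j : ℝ)) = Regen.Esc (Regen.axisLevel e) := by
    have hdot : ∀ z : Site (k + 1),
        dot (fun j => (stp e j : ℝ)) z = ((Regen.axisLevel e z : ℤ) : ℝ) := fun z => by
      rw [dot, Finset.sum_eq_single e.1]
      · simp [stp, Regen.axisLevel]
      · intro j _ hj
        simp [stp, hj]
      · simp
    ext u
    simp only [Set.mem_preimage, escape, Regen.Esc, Set.mem_ofPred_eq, hdot]
    exact tendsto_intCast_atTop_iff
  have hp : 0 < Regen.ann μ 0 (Regen.Esc (Regen.axisLevel e)) := by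
    rw [← hescape, ← key (hesc _)]
    exact hpos
  have hreg : Flux.RegExit μ (Regen.axisLevel e) e.1 := by
    rcases hyp with h | h
    · refine Flux.regExit_of_diffusive μ hell e (fun δ hδ => Flux.exists_exit_spread μ _ e.1
        (Flux.axisLevel_i₀ e) hell (Regen.isLevel_axisLevel e) (Regen.aUp_pos μ _ hell hp) hδ) ?_
      intro δ hδ
      obtain ⟨K, N, hK⟩ := h δ hδ
      refine ⟨K, N, fun a ha => ?_⟩
      obtain ⟨c, hc⟩ := hK a ha
      exact ⟨c, by rw [Flux.ExitFar, ← hann]; exact hc⟩
    · refine Flux.regExit_of_regWalk μ hell e ?_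
      intro δ hδ m
      obtain ⟨A, N, hA⟩ := h δ hδ m
      refine ⟨A, N, fun n hn => ?_⟩
      obtain ⟨R, hR⟩ := hA n hn
      refine ⟨R, fun a ha1 ha2 => ?_⟩
      obtain ⟨⟨c, hc⟩, hs⟩ := hR a ha1 ha2
      refine ⟨⟨c, by rw [Flux.ExitFar, ← hann]; exact hc⟩, ?_⟩
      simp only [← hann]
      simp only [Nat.add_sub_cancel] at hs
      exact hs
  have hl := Flux.zero_one_of_regExit μ hk1 hell e hp hreg l
  rw [annealedEscape, show (∫⁻ w, Q w 0 (escape l) ∂(Measure.infinitePi fun _ : Site (k + 1) => μ)) =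
    Regen.ann μ 0 (path 0 ⁻¹' escape l) from key (hesc l)]
  exact hl

end Vale.Agent.Results.P147.SlabExitZeroOne
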